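import Vale.Agent.P139Z.ExtM.Mom

/-! The momentum estimate for the reduced system. -/

open Set Filter Topology MeasureTheory Complex
open scoped NNReal ENNReal ComplexConjugate ContDiff

namespace Vale.Agent.P139Z.ExtM

lemma pow_le_W {a : ℝ} (ha : 1 ≤ a) (ha' : a ≤ 16) {l n : ℕ} (hn : n ≤ l + 14) :
    a ^ n ≤ 256 * a ^ ((l : ℝ) + 25 / 2) := by
  have h0 : 0 < a := by linarith
  have h1 : (n : ℝ) ≤ l + 14 := by exact_mod_cast hn
  have h2 : a ^ n ≤ a ^ ((l : ℝ) + 25 / 2 + (2 : ℕ)) := by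
    rw [← Real.rpow_natCast]
    exact Real.rpow_le_rpow_of_exponent_le ha (by push_cast; linarith)
  rw [Real.rpow_add h0, Real.rpow_natCast, mul_comm] at h2
  exact h2.trans (mul_le_mul_of_nonneg_right (by nlinarith) (Real.rpow_nonneg h0.le _))

lemma fl_le {a κ t E W : ℝ} {F H : ℝ → ℂ} {B j : ℕ} (ha : 0 ≤ a) (hW : a ^ (B + j) ≤ 256 * W)
    (hκ : 16 ≤ κ) (ht : 1 ≤ t) (hj : j ≤ 8)
    (h : ‖iteratedDeriv j F a‖ + ‖iteratedDeriv j H a‖ ≤ t ^ j * E) {u v : ℝ} (hu : 0 ≤ u)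
    (hv : 0 ≤ v) (hF : |Jx (fun i => iteratedDeriv i F a) j| ≤ t ^ (2 * j) * (u + j * κ * E ^ 2))
    (hH : |Jx (fun i => iteratedDeriv i H a) j| ≤ t ^ (2 * j) * (v + j * κ * E ^ 2)) :
    max (fl B j F a + fl B j H a) 0 ≤ 256 * W * (t ^ (2 * j) * (70 * κ * (u + v + E ^ 2))) := by
  have hj' : (j : ℝ) ≤ 8 := by exact_mod_cast hj
  have htj : 0 ≤ t ^ (2 * j) := pow_nonneg (by linarith) _
  have hp : 0 ≤ a ^ (B + j) := pow_nonneg ha _
  have hQ : 0 ≤ t ^ (2 * j) * (70 * κ * (u + v + E ^ 2)) :=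
    mul_nonneg htj (mul_nonneg (by linarith) (add_nonneg (add_nonneg hu hv) (sq_nonneg _)))
  refine max_le ?_ (mul_nonneg (hp.trans hW) hQ)
  refine le_trans ?_ (mul_le_mul_of_nonneg_right hW hQ)
  unfold fl
  rw [← mul_add]
  refine mul_le_mul_of_nonneg_left ?_ hp
  have a1 := (le_abs_self _).trans hF
  have a2 := (le_abs_self _).trans hH
  simp only [Jx] at a1 a2
  have a3 : ‖iteratedDeriv j F a‖ ^ 2 + ‖iteratedDeriv j H a‖ ^ 2 ≤ t ^ (2 * j) * E ^ 2 := by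
    have g1 := pow_le_pow_left₀ (add_nonneg (norm_nonneg _) (norm_nonneg _)) h 2
    have g2 := mul_nonneg (norm_nonneg (iteratedDeriv j F a)) (norm_nonneg (iteratedDeriv j H a))
    have g3 : (t ^ j * E) ^ 2 = t ^ (2 * j) * E ^ 2 := by ring
    nlinarith
  have a4 : 0 ≤ t ^ (2 * j) * ((70 * κ - 4) * (u + v) + (70 * κ - 8 * j * κ - 1 / 2) * E ^ 2) :=
    mul_nonneg htj (add_nonneg (mul_nonneg (by linarith) (add_nonneg hu hv))
      (mul_nonneg (by nlinarith) (sq_nonneg _)))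
  linarith

lemma bv_le {a κ t E W : ℝ} {F H : ℝ → ℂ} {B : ℕ} (ha : 0 ≤ a) (hW : a ^ B ≤ 256 * W)
    (hκ : 16 ≤ κ) (ht : 1 ≤ t) (hE : 0 ≤ E)
    (h : ∀ j, j ≤ 9 → ‖iteratedDeriv j F a‖ + ‖iteratedDeriv j H a‖ ≤ t ^ j * E) {u v : ℝ}
    (hu : 0 ≤ u) (hv : 0 ≤ v) :
    bv B F H a ≤ 256 * W * (t ^ (2 * 7) * (70 * κ * (u + v + E ^ 2))) := by
  have a1 : ∑ i ∈ Finset.range 7, (‖iteratedDeriv i F a‖ ^ 2 + ‖iteratedDeriv i H a‖ ^ 2)
      ≤ ∑ _i ∈ Finset.range 7, t ^ (2 * 7) * E ^ 2 := by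
    refine Finset.sum_le_sum fun i hi => ?_
    have hi' := Finset.mem_range.mp hi
    have g0 := (h i (by omega)).trans (mul_le_mul_of_nonneg_right
      (pow_le_pow_right₀ ht (by omega : i ≤ 7)) hE)
    have g1 := pow_le_pow_left₀ (add_nonneg (norm_nonneg _) (norm_nonneg _)) g0 2
    have g2 := mul_nonneg (norm_nonneg (iteratedDeriv i F a)) (norm_nonneg (iteratedDeriv i H a))
    have g3 : (t ^ 7 * E) ^ 2 = t ^ (2 * 7) * E ^ 2 := by ring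
    nlinarith
  rw [Finset.sum_const, Finset.card_range, nsmul_eq_mul] at a1
  have htj : 0 ≤ t ^ (2 * 7) := pow_nonneg (by linarith) _
  have a2 : 0 ≤ t ^ (2 * 7) * (70 * κ * (u + v) + (70 * κ - 7) * E ^ 2) :=
    mul_nonneg htj (add_nonneg (mul_nonneg (by linarith) (add_nonneg hu hv))
      (mul_nonneg (by linarith) (sq_nonneg _)))
  unfold bv
  refine mul_le_mul hW ?_ (Finset.sum_nonneg fun i _ => add_nonneg (sq_nonneg _) (sq_nonneg _))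
    ((pow_nonneg ha _).trans hW)
  rw [Nat.cast_ofNat] at a1
  linarith

lemma combine {C t R m7 m8 b w7 w8 Z : ℝ} (hC : 0 < C) (ht : 1 ≤ t) (hR : 0 ≤ R) (h7 : m7 ≤ R)
    (h8 : m8 ≤ t ^ 2 * R) (hb : b ≤ R) (e7 : w7 ≤ C * (m7 + b + 0 ^ 2))
    (e8 : w8 ≤ C * (m8 + m7 + b + 0 ^ 2)) (eZ : Z ≤ 8 * (C * (w7 + b))) :
    w8 / t + t * w7 + t * Z ≤ (5 * C + 8 * C * (2 * C + 1)) * (t * R) := by
  have ht0 : 0 < t := by linarith
  have a1 : w7 ≤ 2 * C * R := by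
    have := mul_le_mul_of_nonneg_left (show m7 + b + 0 ^ 2 ≤ 2 * R by linarith) hC.le
    linarith
  have a2 : w8 / t ≤ 3 * C * (t * R) := by
    have g1 : R ≤ t ^ 2 * R := le_mul_of_one_le_left hR (one_le_pow₀ ht)
    have := mul_le_mul_of_nonneg_left (show m8 + m7 + b + 0 ^ 2 ≤ 3 * (t ^ 2 * R) by linarith) hC.le
    rw [div_le_iff₀ ht0]
    linarith
  have a3 : Z ≤ 8 * C * (2 * C + 1) * R := by
    have := mul_le_mul_of_nonneg_left (show w7 + b ≤ (2 * C + 1) * R by linarith) hC.le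
    linarith
  have a4 := mul_le_mul_of_nonneg_left a1 ht0.le
  have a5 := mul_le_mul_of_nonneg_left a3 ht0.le
  linarith

theorem core {κ : ℝ} (hκ : 16 ≤ κ) : ∃ ε₀ : ℝ, 0 < ε₀ ∧ ∃ K : ℝ, 0 < K ∧
    ∀ (V₁ V₂ : ℝ → ℂ) (A A' : ℂ) (l : ℕ) (F H : ℝ → ℂ) (a t e : ℝ),
      RedSol V₁ V₂ A A' (6 + l) F H (fun _ => 0) (fun _ => 0) → ContDiffOn ℝ ∞ V₁ (Ioi 0) →
      ContDiffOn ℝ ∞ V₂ (Ioi 0) → (l : ℝ) / 2 ≤ A'.re → A.re = A'.re →
      Par κ t a (-A.im) A'.re (6 + l : ℕ) → Par κ t a (-A'.im) A'.re (6 + l : ℕ) →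
      t ^ 2 ≤ 70 * (-A'.im) → |(l : ℝ) + 25 / 2 - 2 * (A'.re + 7)| ≤ κ →
      (∀ i ≤ 10, ∀ ρ : ℝ, a ≤ ρ → ‖iteratedDeriv i V₁ ρ‖ ≤ ε₀ * ρ ^ (-(1 + (i : ℝ))) ∧
        ‖iteratedDeriv i V₂ ρ‖ ≤ ε₀ * ρ ^ (-(1 + (i : ℝ)))) →
      Decay ((l : ℝ) / 2) F → Decay ((l : ℝ) / 2) H →
      ‖F a‖ + ‖H a‖ ≤ e → ‖deriv F a‖ + ‖deriv H a‖ ≤ t * e →
      mom a (-A'.im) (l + 11 / 2) (H a) (deriv H a)
        ≤ K * (t * (|(conj (F a) * deriv F a).im| + |(conj (H a) * deriv H a).im| + e ^ 2)) := by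
  obtain ⟨ε, hε, C, hC, hm⟩ := mass_estimate
  set c₀ : ℝ := 128 * (2 * κ) ^ 9 with hc₀
  have k9 : 1 ≤ (2 * κ) ^ 9 := one_le_pow₀ (by linarith)
  have c1 : 1 ≤ c₀ := by linarith
  set c₁ : ℝ := 200 * κ * ((5 * C + 8 * C * (2 * C + 1)) * (256 * (70 * κ))) with hc₁
  have c1' : 0 ≤ c₁ := by positivity
  refine ⟨min ε 1, lt_min hε one_pos, (1500 * κ ^ 2) ^ 7 * (c₁ + 1) * c₀ ^ 2, by positivity, ?_⟩
  intro V₁ V₂ A A' l F H a t e R h₁ h₂ hl hre P P' hw hA hV dF dH h0 h1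
  have ha := P.r1
  have ha0 : 0 < a := by linarith
  have ht := P.t1
  have ht0 : 0 < t := by linarith
  have he : 0 ≤ e := le_trans (add_nonneg (norm_nonneg _) (norm_nonneg _)) h0
  have hVg : ∀ δ : ℝ, min ε 1 ≤ δ → ∀ i ≤ 10, ∀ ρ : ℝ, a ≤ ρ →
      ‖iteratedDeriv i V₁ ρ‖ ≤ δ * ρ ^ (-(1 + (i : ℝ))) ∧
        ‖iteratedDeriv i V₂ ρ‖ ≤ δ * ρ ^ (-(1 + (i : ℝ))) := fun δ hδ i hi ρ hρ =>
    have g := mul_le_mul_of_nonneg_right hδ (Real.rpow_nonneg (x := ρ) (by linarith) (-(1 + (i : ℝ))))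
    ⟨(hV i hi ρ hρ).1.trans g, (hV i hi ρ hρ).2.trans g⟩
  have hV1 := hVg 1 (min_le_right _ _)
  simp only [one_mul] at hV1
  have hV0 : ∀ j, j ≤ 7 → ∀ i, i ≤ j → ‖iteratedDeriv i V₁ a‖ ≤ 1 ∧ ‖iteratedDeriv i V₂ a‖ ≤ 1 :=
    fun j hj i hi =>
      have g : a ^ (-(1 + (i : ℝ))) ≤ 1 := Real.rpow_le_one_of_one_le_of_nonpos ha
        (by have := Nat.cast_nonneg (α := ℝ) i; linarith)
      ⟨(hV1 i (by omega) a le_rfl).1.trans g, (hV1 i (by omega) a le_rfl).2.trans g⟩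
  have rx := rec_of R.smoothF R.eqF ha0
  rw [hre] at rx
  have ry := rec_of R.smoothH R.eqH ha0
  have hS : ∀ j, j ≤ 7 → ‖src V₁ V₂ F H j a‖ ≤ ∑ i ∈ Finset.range (j + 1), (j.choose i : ℝ)
      * (‖iteratedDeriv i F a‖ + ‖iteratedDeriv i H a‖) := fun j hj => by
    simpa only [one_mul] using src_le (at_of_inf h₁ ha0 j) (at_of_inf h₂ ha0 j)
      (at_of_on R.smoothF ha0 (by exact_mod_cast (by omega : j ≤ 30)))
      (at_of_on R.smoothH ha0 (by exact_mod_cast (by omega : j ≤ 30))) (v := fun _ => 1) (hV0 j hj)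
  have hT : ∀ j, j ≤ 7 → ‖src V₁ V₂ H F j a‖ ≤ ∑ i ∈ Finset.range (j + 1), (j.choose i : ℝ)
      * (‖iteratedDeriv i F a‖ + ‖iteratedDeriv i H a‖) := fun j hj => by
    simpa only [one_mul, add_comm ‖iteratedDeriv _ H a‖] using src_le (at_of_inf h₁ ha0 j)
      (at_of_inf h₂ ha0 j) (at_of_on R.smoothH ha0 (by exact_mod_cast (by omega : j ≤ 30)))
      (at_of_on R.smoothF ha0 (by exact_mod_cast (by omega : j ≤ 30))) (v := fun _ => 1) (hV0 j hj)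
  have sz := size_le (e := e) P P' rx ry hS hT (by simpa using h0) (by simpa using h1)
  have hq : 1 ≤ 2 * κ * t := one_le_mul_of_one_le_of_one_le (by linarith) ht
  set E := c₀ * e with hE
  have hE0 : 0 ≤ E := mul_nonneg (by linarith) he
  have up : ∀ j, j ≤ 9 → 128 * ((2 * κ * t) ^ j * e) ≤ t ^ j * E := fun j hj => by
    have g1 : (2 * κ) ^ j ≤ (2 * κ) ^ 9 := pow_le_pow_right₀ (by linarith) hj
    have g2 := mul_le_mul_of_nonneg_right g1 (mul_nonneg (pow_nonneg ht0.le j) he)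
    rw [mul_pow, hE, hc₀]
    linarith
  have n9 : ∀ j, j ≤ 9 → ‖iteratedDeriv j F a‖ + ‖iteratedDeriv j H a‖ ≤ t ^ j * E :=
    fun j hj => by
      have g1 := sz j hj
      have g2 := up j hj
      have g3 := add_nonneg (norm_nonneg (iteratedDeriv j F a)) (norm_nonneg (iteratedDeriv j H a))
      linarith
  have s7 : ∀ j, j ≤ 7 → ∑ i ∈ Finset.range (j + 1), (j.choose i : ℝ)
      * (‖iteratedDeriv i F a‖ + ‖iteratedDeriv i H a‖) ≤ t ^ j * E := fun j hj =>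
    (sum_choose_le hq he hj fun i hi => sz i (by omega)).trans (up j (by omega))
  have nx : ∀ j, j ≤ 9 → ‖iteratedDeriv j F a‖ ≤ t ^ j * E := fun j hj =>
    (le_add_of_nonneg_right (norm_nonneg _)).trans (n9 j hj)
  have ny : ∀ j, j ≤ 9 → ‖iteratedDeriv j H a‖ ≤ t ^ j * E := fun j hj =>
    (le_add_of_nonneg_left (norm_nonneg _)).trans (n9 j hj)
  have fx := flux_le P rx hE0 nx fun j hj => (hS j hj).trans (s7 j hj)
  have fy := flux_le P' ry hE0 ny fun j hj => (hT j hj).trans (s7 j hj)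
  have pd := psi_down P' ry hE0 ny (fun j hj => (hT j hj).trans (s7 j hj)) hw 7 le_rfl
  set u := |Jx (fun j => iteratedDeriv j F a) 0| with hu
  set v := |Jx (fun j => iteratedDeriv j H a) 0| with hv
  have hu0 : 0 ≤ u := abs_nonneg _
  have hv0 : 0 ≤ v := abs_nonneg _
  have z0 : ∀ i ≤ 10, ∀ ρ : ℝ, a ≤ ρ →
      ‖iteratedDeriv i (fun _ : ℝ => (0 : ℂ)) ρ‖ ≤ 0 * ρ ^ (-((l : ℝ) / 2 + i)) ∧
        ‖iteratedDeriv i (fun _ : ℝ => (0 : ℂ)) ρ‖ ≤ 0 * ρ ^ (-((l : ℝ) / 2 + i)) := by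
    intro i _ ρ _
    simp
  obtain ⟨m7, m8, mi⟩ := hm V₁ V₂ A A' l F H _ _ a 0 R h₁ h₂ contDiffOn_const contDiffOn_const
    (hre ▸ hl) hl ha P.r16 (hVg ε (min_le_left _ _)) z0 dF dH
  have N1 := P.N1
  push_cast at N1
  have ms := mom_seven h₁ h₂ R.smoothF R.smoothH R.eqH ha hV1 dF dH hκ ht (by linarith) hA
  set W := a ^ ((l : ℝ) + 25 / 2) with hW
  have hW0 : 0 < W := Real.rpow_pos_of_pos ha0 _
  have f7 := fl_le ha0.le (pow_le_W ha P.r16 (l := l) (n := 6 + l + 7) (by omega)) hκ ht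
    (by norm_num) (n9 7 (by norm_num)) hu0 hv0 (fx 7 (by norm_num)) (fy 7 (by norm_num))
  have f8 := fl_le ha0.le (pow_le_W ha P.r16 (l := l) (n := 6 + l + 8) (by omega)) hκ ht
    (by norm_num) (n9 8 (by norm_num)) hu0 hv0 (fx 8 (by norm_num)) (fy 8 (by norm_num))
  have fb := bv_le ha0.le (pow_le_W ha P.r16 (l := l) (n := 6 + l) (by omega)) hκ ht hE0 n9 hu0 hv0
  rw [← hW] at f7 f8 fb
  set Q := u + v + E ^ 2 with hQ
  have hQ0 : 0 ≤ Q := add_nonneg (add_nonneg hu0 hv0) (sq_nonneg _)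
  have sZ : ∑ i ∈ Finset.range 8, wn (l - 4 + 2 * i) i F H a
      ≤ 8 * (C * (wn (l + 12) 7 F H a + bv (6 + l) F H a)) := by
    refine (Finset.sum_le_sum fun i hi => (mi i (Nat.lt_succ_iff.mp
      (Finset.mem_range.mp hi))).2).trans (le_of_eq ?_)
    rw [Finset.sum_const, Finset.card_range, nsmul_eq_mul]
    norm_num
  have cb := combine hC ht (mul_nonneg (by linarith) (mul_nonneg (pow_nonneg ht0.le _)
    (mul_nonneg (by linarith) hQ0))) f7 (f8.trans (le_of_eq (by ring))) fb m7 m8 sZ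
  have p7 : psi a (-A'.im) (6 + l : ℕ) (fun j => iteratedDeriv j H a) 7 ≤ c₁ * (t ^ 15 * Q) := by
    have g1 : psi a (-A'.im) (6 + l : ℕ) (fun j => iteratedDeriv j H a) 7
        = mom a (-A'.im) (l + 25 / 2) (iteratedDeriv 7 H a) (iteratedDeriv 8 H a) := by
      unfold psi; congr 1; push_cast; ring
    rw [g1]
    refine le_of_mul_le_mul_left (ms.trans ((mul_le_mul_of_nonneg_left cb (by linarith)).trans
      (le_of_eq ?_))) hW0
    rw [hc₁]; ring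
  have tQ : 0 ≤ t ^ 15 * Q := mul_nonneg (pow_nonneg ht0.le _) hQ0
  have p8 : max (psi a (-A'.im) (6 + l : ℕ) (fun j => iteratedDeriv j H a) 7) 0 + t ^ 15 * E ^ 2
      ≤ (c₁ + 1) * (t ^ 15 * Q) := by
    have g1 := max_le p7 (mul_nonneg c1' tQ)
    have g2 : t ^ 15 * E ^ 2 ≤ t ^ 15 * Q :=
      mul_le_mul_of_nonneg_left (by linarith) (pow_nonneg ht0.le _)
    linarith
  have p9 : Q ≤ c₀ ^ 2 * (u + v + e ^ 2) := by
    have g1 : u + v ≤ c₀ ^ 2 * (u + v) := le_mul_of_one_le_left (by linarith) (one_le_pow₀ c1)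
    rw [hQ, hE]
    linarith
  have g0 : psi a (-A'.im) (6 + l : ℕ) (fun j => iteratedDeriv j H a) (7 - 7)
      = mom a (-A'.im) (l + 11 / 2) (H a) (deriv H a) := by
    unfold psi
    simp only [Nat.sub_self, iteratedDeriv_zero, zero_add, iteratedDeriv_one]
    congr 1; push_cast; ring
  rw [g0] at pd
  have gu : u = |(conj (F a) * deriv F a).im| := by simp [hu, Jx]
  have gv : v = |(conj (H a) * deriv H a).im| := by simp [hv, Jx]
  rw [← gu, ← gv]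
  have k7 : 0 ≤ (1500 * κ ^ 2) ^ 7 := by positivity
  have p10 := mul_le_mul_of_nonneg_left (mul_le_mul_of_nonneg_left p9 (pow_nonneg ht0.le 15))
    (by linarith : 0 ≤ c₁ + 1)
  refine le_of_mul_le_mul_left (pd.trans ((mul_le_mul_of_nonneg_left (p8.trans p10) k7).trans
    (le_of_eq ?_))) (pow_pos ht0 _)
  generalize (1500 * κ ^ 2) ^ 7 = k
  ring

end Vale.Agent.P139Z.ExtM
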