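import Mathlib

/-! Level transfers at one point: sizes, fluxes and momentum. -/

open Complex
open scoped ComplexConjugate

namespace Vale.Agent.P139Z.ExtM

/-- The recurrence satisfied by the derivatives at a point. -/
def Rec (ρ w ν N : ℝ) (y S : ℕ → ℂ) : Prop :=
  ∀ j : ℕ, j ≤ 7 → 4 * (ρ : ℂ) * y (j + 2) + (4 * ((N : ℂ) + j) + I * ρ) * y (j + 1)
    + (I * ((ν : ℂ) + j) + w) * y j = S j

/-- Size of the parameters. -/
structure Par (κ t ρ w ν N : ℝ) : Prop where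
  k16 : 16 ≤ κ
  t1 : 1 ≤ t
  r1 : 1 ≤ ρ
  r16 : ρ ≤ 16
  hw : |w| ≤ t ^ 2
  n0 : 0 ≤ ν
  n1 : ν + 7 ≤ κ * t
  N0 : 1 ≤ N
  N1 : N + 7 ≤ κ * t

/-- The flux of level `j`. -/
noncomputable def Jx (y : ℕ → ℂ) (j : ℕ) : ℝ := (conj (y j) * y (j + 1)).im

/-- The momentum of data `y, p` with the weight exponent `b`. -/
noncomputable def mom (ρ w b : ℝ) (y p : ℂ) : ℝ :=
  4 * ρ * ‖p‖ ^ 2 + 4 * b * (conj y * p).re + (w + b / ρ) * ‖y‖ ^ 2

/-- The momentum of level `j`. -/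
noncomputable def psi (ρ w N : ℝ) (y : ℕ → ℂ) (j : ℕ) : ℝ :=
  mom ρ w (N + j - 1 / 2) (y j) (y (j + 1))

variable {κ t ρ w w' ν N e : ℝ} {x y S T : ℕ → ℂ}

lemma norm_coef {a b : ℝ} (ha : 0 ≤ a) (hb : 0 ≤ b) : ‖((a : ℂ) + I * b)‖ ≤ a + b := by
  refine (norm_add_le _ _).trans ?_
  rw [norm_mul, norm_I, one_mul, norm_real, norm_real, Real.norm_of_nonneg ha,
    Real.norm_of_nonneg hb]

lemma Rec.norm_le (P : Par κ t ρ w ν N) (h : Rec ρ w ν N y S) {j : ℕ} (hj : j ≤ 7) :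
    4 * ‖y (j + 2)‖ ≤ ‖S j‖ + 5 * κ * t * ‖y (j + 1)‖ + (κ + 1) * t ^ 2 * ‖y j‖ := by
  have hj' : (j : ℝ) ≤ 7 := by exact_mod_cast hj
  have hj0 : (0 : ℝ) ≤ j := Nat.cast_nonneg j
  obtain ⟨k16, t1, r1, r16, hw, n0, n1, N0, N1⟩ := P
  have e1 : 4 * (ρ : ℂ) * y (j + 2) = S j - (((4 * (N + j) : ℝ) : ℂ) + I * ρ) * y (j + 1)
      - (I * ((ν + j : ℝ) : ℂ) + w) * y j := by
    rw [← h j hj]; push_cast; ring
  have a1 : ‖(((4 * (N + j) : ℝ) : ℂ) + I * ρ)‖ ≤ 5 * κ * t := by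
    refine (norm_coef (by linarith) (by linarith)).trans ?_
    nlinarith
  have a2 : ‖(I * ((ν + j : ℝ) : ℂ) + w)‖ ≤ (κ + 1) * t ^ 2 := by
    refine (norm_add_le _ _).trans ?_
    rw [norm_mul, norm_I, one_mul, norm_real, norm_real, Real.norm_of_nonneg (by linarith),
      Real.norm_eq_abs]
    have : κ * t ≤ κ * t ^ 2 := mul_le_mul_of_nonneg_left (by nlinarith) (by linarith)
    linarith
  have a3 : ‖4 * (ρ : ℂ) * y (j + 2)‖ = 4 * ρ * ‖y (j + 2)‖ := by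
    rw [norm_mul, norm_mul, norm_real, Real.norm_of_nonneg (by linarith)]; simp
  have a4 : 4 * ‖y (j + 2)‖ ≤ 4 * ρ * ‖y (j + 2)‖ := by nlinarith [norm_nonneg (y (j + 2))]
  refine a4.trans ?_
  rw [← a3, e1]
  refine (norm_sub_le _ _).trans (add_le_add ((norm_sub_le _ _).trans (add_le_add le_rfl ?_)) ?_)
  · rw [norm_mul]; exact mul_le_mul_of_nonneg_right a1 (norm_nonneg _)
  · rw [norm_mul]; exact mul_le_mul_of_nonneg_right a2 (norm_nonneg _)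

lemma sum_choose_le {n : ℕ → ℝ} {q : ℝ} (hq : 1 ≤ q) (he : 0 ≤ e) {j : ℕ} (hj : j ≤ 7)
    (h : ∀ i, i ≤ j → n i ≤ q ^ i * e) :
    ∑ i ∈ Finset.range (j + 1), (j.choose i : ℝ) * n i ≤ 128 * (q ^ j * e) := by
  have h1 : ∑ i ∈ Finset.range (j + 1), (j.choose i : ℝ) * n i
      ≤ ∑ i ∈ Finset.range (j + 1), (j.choose i : ℝ) * (q ^ j * e) := by
    refine Finset.sum_le_sum fun i hi => mul_le_mul_of_nonneg_left ?_ (Nat.cast_nonneg _)
    have hi' : i ≤ j := Nat.lt_succ_iff.mp (Finset.mem_range.mp hi)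
    exact (h i hi').trans (mul_le_mul_of_nonneg_right (pow_le_pow_right₀ hq hi') he)
  refine h1.trans ?_
  rw [← Finset.sum_mul]
  refine mul_le_mul_of_nonneg_right ?_ (mul_nonneg (pow_nonneg (by linarith) _) he)
  rw [← Nat.cast_sum, Nat.sum_range_choose]
  have : 2 ^ j ≤ 2 ^ 7 := Nat.pow_le_pow_right (by norm_num) hj
  exact_mod_cast this

lemma size_le (P : Par κ t ρ w ν N) (P' : Par κ t ρ w' ν N) (hx : Rec ρ w ν N x S)
    (hy : Rec ρ w' ν N y T)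
    (hS : ∀ j, j ≤ 7 → ‖S j‖ ≤ ∑ i ∈ Finset.range (j + 1), (j.choose i : ℝ) * (‖x i‖ + ‖y i‖))
    (hT : ∀ j, j ≤ 7 → ‖T j‖ ≤ ∑ i ∈ Finset.range (j + 1), (j.choose i : ℝ) * (‖x i‖ + ‖y i‖))
    (h0 : ‖x 0‖ + ‖y 0‖ ≤ e) (h1 : ‖x 1‖ + ‖y 1‖ ≤ t * e) :
    ∀ j, j ≤ 9 → ‖x j‖ + ‖y j‖ ≤ (2 * κ * t) ^ j * e := by
  have he : 0 ≤ e := le_trans (add_nonneg (norm_nonneg _) (norm_nonneg _)) h0
  have k16 := P.k16
  have t1 := P.t1
  have hq : 1 ≤ 2 * κ * t := by nlinarith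
  intro j
  induction j using Nat.strong_induction_on with
  | _ j ih =>
    intro hj
    match j, ih, hj with
    | 0, _, _ => simpa using h0
    | 1, _, _ =>
      rw [pow_one]
      refine h1.trans (mul_le_mul_of_nonneg_right ?_ he)
      nlinarith
    | j + 2, ih, hj =>
      have hj7 : j ≤ 7 := by omega
      have s := sum_choose_le (n := fun i => ‖x i‖ + ‖y i‖) hq he hj7
        (fun i hi => ih i (by omega) (by omega))
      have a1 := hx.norm_le P hj7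
      have a2 := hy.norm_le P' hj7
      have b1 := hS j hj7
      have b2 := hT j hj7
      have c1 := ih (j + 1) (by omega) (by omega)
      have c0 := ih j (by omega) (by omega)
      set u := (2 * κ * t) ^ j * e with hu
      have hu0 : 0 ≤ u := mul_nonneg (pow_nonneg (by linarith) _) he
      have e1 : (2 * κ * t) ^ (j + 1) * e = 2 * κ * t * u := by rw [hu]; ring
      have e2 : (2 * κ * t) ^ (j + 2) * e = (2 * κ * t) ^ 2 * u := by rw [hu]; ring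
      rw [e1] at c1
      rw [e2]
      have d1 : 5 * κ * t * (‖x (j + 1)‖ + ‖y (j + 1)‖) ≤ 5 * κ * t * (2 * κ * t * u) :=
        mul_le_mul_of_nonneg_left c1 (by nlinarith)
      have d0 : (κ + 1) * t ^ 2 * (‖x j‖ + ‖y j‖) ≤ (κ + 1) * t ^ 2 * u :=
        mul_le_mul_of_nonneg_left c0 (mul_nonneg (by linarith) (sq_nonneg _))
      have t2 : 1 ≤ t ^ 2 := by nlinarith
      have d2 : u ≤ t ^ 2 * u := by nlinarith
      have d3 : 0 ≤ (6 * κ ^ 2 - κ - 257) * (t ^ 2 * u) :=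
        mul_nonneg (by nlinarith) (mul_nonneg (sq_nonneg _) hu0)
      nlinarith

lemma abs_re_le (a b : ℂ) : |(conj a * b).re| ≤ ‖a‖ * ‖b‖ := by
  refine (abs_re_le_norm _).trans ?_
  rw [norm_mul, norm_conj]

lemma abs_im_le (a b : ℂ) : |(conj a * b).im| ≤ ‖a‖ * ‖b‖ := by
  refine (abs_im_le_norm _).trans ?_
  rw [norm_mul, norm_conj]

lemma sqn (a : ℂ) : ‖a‖ ^ 2 = a.re ^ 2 + a.im ^ 2 := by
  rw [Complex.sq_norm, normSq_apply]; ring

lemma flux_id {y p q S : ℂ} {n v : ℝ}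
    (h : 4 * (ρ : ℂ) * q + ((n : ℂ) + I * ρ) * p + (I * (v : ℂ) + w) * y = S) :
    4 * ρ * (conj p * q).im
      = w * (conj y * p).im - v * (conj y * p).re - ρ * ‖p‖ ^ 2 + (conj p * S).im := by
  rw [← h, sqn]
  simp
  ring

lemma flux_le (P : Par κ t ρ w ν N) (h : Rec ρ w ν N y S) (he : 0 ≤ e)
    (hy : ∀ j, j ≤ 9 → ‖y j‖ ≤ t ^ j * e) (hS : ∀ j, j ≤ 7 → ‖S j‖ ≤ t ^ j * e) :
    ∀ j, j ≤ 8 → |Jx y j| ≤ t ^ (2 * j) * (|Jx y 0| + j * κ * e ^ 2) := by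
  obtain ⟨k16, t1, r1, r16, hw, n0, n1, N0, N1⟩ := P
  intro j
  induction j with
  | zero => intro _; simp
  | succ j ih =>
    intro hj
    have hj7 : j ≤ 7 := by omega
    have ih := ih (by omega)
    have hj' : (j : ℝ) ≤ 7 := by exact_mod_cast hj7
    have hj0 : (0 : ℝ) ≤ j := Nat.cast_nonneg j
    have e1 := flux_id (ρ := ρ) (w := w) (y := y j) (p := y (j + 1)) (q := y (j + 2)) (S := S j)
      (n := 4 * (N + j)) (v := ν + j) (by rw [← h j hj7]; push_cast; ring)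
    have c0 := hy j (by omega)
    have c1 := hy (j + 1) (by omega)
    have c2 := hS j hj7
    set u := t ^ j * e with hu
    have hu0 : 0 ≤ u := mul_nonneg (pow_nonneg (by linarith) _) he
    have e2 : t ^ (j + 1) * e = t * u := by rw [hu]; ring
    rw [e2] at c1
    have htu : 0 ≤ t * u := mul_nonneg (by linarith) hu0
    have b1 : |w * (conj (y j) * y (j + 1)).im| ≤ t ^ 2 * |Jx y j| := by
      rw [abs_mul]; exact mul_le_mul_of_nonneg_right hw (abs_nonneg _)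
    have b2 : |(ν + j) * (conj (y j) * y (j + 1)).re| ≤ κ * t * (u * (t * u)) := by
      rw [abs_mul, abs_of_nonneg (by linarith : 0 ≤ ν + j)]
      exact mul_le_mul (by linarith) ((abs_re_le _ _).trans
        (mul_le_mul c0 c1 (norm_nonneg _) hu0)) (abs_nonneg _) (by linarith)
    have b3 : ρ * ‖y (j + 1)‖ ^ 2 ≤ κ * (t * u) ^ 2 :=
      mul_le_mul (by linarith) (pow_le_pow_left₀ (norm_nonneg _) c1 2) (sq_nonneg _) (by linarith)
    have b3' : 0 ≤ ρ * ‖y (j + 1)‖ ^ 2 := mul_nonneg (by linarith) (sq_nonneg _)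
    have b4 : |(conj (y (j + 1)) * S j).im| ≤ t * u * u :=
      (abs_im_le _ _).trans (mul_le_mul c1 c2 (norm_nonneg _) htu)
    have b5 : t * u * u ≤ κ * (t * u) ^ 2 := by
      have g1 : 0 ≤ (κ * t - 1) * (t * u * u) := mul_nonneg (by linarith) (mul_nonneg htu hu0)
      have g2 : (κ * t - 1) * (t * u * u) = κ * (t * u) ^ 2 - t * u * u := by ring
      linarith
    have b6 : |4 * ρ * Jx y (j + 1)| ≤ t ^ 2 * |Jx y j| + 3 * (κ * (t * u) ^ 2) := by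
      have : 4 * ρ * Jx y (j + 1) = _ := e1
      rw [this, abs_le]
      have g1 := abs_le.mp b1
      have g2 := abs_le.mp b2
      have g4 := abs_le.mp b4
      have g5 : κ * t * (u * (t * u)) = κ * (t * u) ^ 2 := by ring
      constructor <;> linarith [g1.1, g1.2, g2.1, g2.2, g4.1, g4.2]
    rw [abs_mul, abs_of_nonneg (by linarith : 0 ≤ 4 * ρ)] at b6
    have b7 : 4 * |Jx y (j + 1)| ≤ 4 * ρ * |Jx y (j + 1)| :=
      mul_le_mul_of_nonneg_right (by linarith) (abs_nonneg _)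
    have b8 : t ^ 2 * |Jx y j| ≤ t ^ 2 * (t ^ (2 * j) * (|Jx y 0| + j * κ * e ^ 2)) :=
      mul_le_mul_of_nonneg_left ih (sq_nonneg _)
    have e3 : t ^ (2 * (j + 1)) * (|Jx y 0| + ((j + 1 : ℕ) : ℝ) * κ * e ^ 2)
        = t ^ 2 * (t ^ (2 * j) * (|Jx y 0| + j * κ * e ^ 2)) + κ * (t * u) ^ 2 := by
      rw [hu]; push_cast; ring
    rw [e3]
    have b9 : 0 ≤ t ^ 2 * |Jx y j| := mul_nonneg (sq_nonneg _) (abs_nonneg _)
    have b10 : 0 ≤ κ * (t * u) ^ 2 := mul_nonneg (by linarith) (sq_nonneg _)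
    linarith

lemma mom_id {y p q E : ℂ} {n : ℝ} (hρ : ρ ≠ 0)
    (h : 4 * (ρ : ℂ) * q + 4 * (n : ℂ) * p + w * y = E) :
    w * mom ρ w (n - 1 / 2) y p = 4 * ρ * mom ρ w (n + 1 / 2) p q
      + w * ((n - 1 / 2) / ρ) * ‖y‖ ^ 2 + (4 * n - 2) * ‖p‖ ^ 2
      + 2 * (conj (((2 * n - 1 : ℝ) : ℂ) * p + w * y) * E).re - ‖E‖ ^ 2 := by
  rw [← h]
  simp only [mom, sqn]
  simp
  field_simp
  ring

lemma psi_step (P : Par κ t ρ w ν N) (h : Rec ρ w ν N y S) (he : 0 ≤ e)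
    (hy : ∀ j, j ≤ 9 → ‖y j‖ ≤ t ^ j * e) (hS : ∀ j, j ≤ 7 → ‖S j‖ ≤ t ^ j * e) {j : ℕ}
    (hj7 : j ≤ 7) :
    w * psi ρ w N y j ≤ 4 * ρ * psi ρ w N y (j + 1) + 20 * κ ^ 2 * (t ^ (2 * j + 3) * e ^ 2) := by
  obtain ⟨k16, t1, r1, r16, hw, n0, n1, N0, N1⟩ := P
  have hj' : (j : ℝ) ≤ 7 := by exact_mod_cast hj7
  have hj0 : (0 : ℝ) ≤ j := Nat.cast_nonneg j
  have e1 := mom_id (ρ := ρ) (w := w) (y := y j) (p := y (j + 1)) (q := y (j + 2))
    (E := S j - I * ρ * y (j + 1) - I * ((ν + j : ℝ) : ℂ) * y j) (n := N + j) (by linarith)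
    (by rw [← h j hj7]; push_cast; ring)
  have e4 : psi ρ w N y (j + 1) = mom ρ w (N + j + 1 / 2) (y (j + 1)) (y (j + 2)) := by
    unfold psi; congr 1; push_cast; ring
  rw [e4]
  unfold psi
  rw [e1]
  have c0 := hy j (by omega)
  have c1 := hy (j + 1) (by omega)
  have c2 := hS j hj7
  set u := t ^ j * e with hu
  have hu0 : 0 ≤ u := mul_nonneg (pow_nonneg (by linarith) _) he
  have e2 : t ^ (j + 1) * e = t * u := by rw [hu]; ring
  have e3 : t ^ (2 * j + 3) * e ^ 2 = t * (t * u) ^ 2 := by rw [hu]; ring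
  rw [e2] at c1
  rw [e3]
  have htu : 0 ≤ t * u := mul_nonneg (by linarith) hu0
  have hkt : 0 ≤ κ * t := by linarith
  have utu : u ≤ t * u := le_mul_of_one_le_left hu0 t1
  have b1 : w * ((N + j - 1 / 2) / ρ) * ‖y j‖ ^ 2 ≤ t ^ 2 * (κ * t) * u ^ 2 := by
    have a1 : (N + j - 1 / 2) / ρ ≤ κ * t := by
      exact (div_le_self (by linarith) r1).trans (by linarith)
    have a2 : 0 ≤ (N + j - 1 / 2) / ρ := div_nonneg (by linarith) (by linarith)
    exact mul_le_mul (mul_le_mul ((le_abs_self w).trans hw) a1 a2 (sq_nonneg _))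
      (pow_le_pow_left₀ (norm_nonneg _) c0 2) (sq_nonneg _) (mul_nonneg (sq_nonneg _) hkt)
  have b2 : (4 * (N + j) - 2) * ‖y (j + 1)‖ ^ 2 ≤ 4 * (κ * t) * (t * u) ^ 2 :=
    mul_le_mul (by linarith) (pow_le_pow_left₀ (norm_nonneg _) c1 2) (sq_nonneg _) (by linarith)
  have b3 : ‖((2 * (N + j) - 1 : ℝ) : ℂ) * y (j + 1) + w * y j‖ ≤ (2 * κ + 1) * t * (t * u) := by
    refine (norm_add_le _ _).trans ?_
    rw [norm_mul, norm_mul, norm_real, norm_real, Real.norm_of_nonneg (by linarith),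
      Real.norm_eq_abs]
    have a1 : (2 * (N + j) - 1) * ‖y (j + 1)‖ ≤ 2 * (κ * t) * (t * u) :=
      mul_le_mul (by linarith) c1 (norm_nonneg _) (by linarith)
    have a2 : |w| * ‖y j‖ ≤ t ^ 2 * u := mul_le_mul hw c0 (norm_nonneg _) (sq_nonneg _)
    have a3 : (2 * κ + 1) * t * (t * u) = 2 * (κ * t) * (t * u) + t ^ 2 * u := by ring
    linarith
  have b4 : ‖S j - I * ρ * y (j + 1) - I * ((ν + j : ℝ) : ℂ) * y j‖ ≤ (κ + 17) * (t * u) := by
    refine (norm_sub_le _ _).trans ((add_le_add (norm_sub_le _ _) le_rfl).trans ?_)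
    rw [norm_mul, norm_mul, norm_mul, norm_mul, norm_I, one_mul, one_mul, norm_real, norm_real,
      Real.norm_of_nonneg (by linarith), Real.norm_of_nonneg (by linarith)]
    have a1 : ρ * ‖y (j + 1)‖ ≤ 16 * (t * u) := mul_le_mul r16 c1 (norm_nonneg _) (by norm_num)
    have a2 : (ν + j) * ‖y j‖ ≤ κ * t * u := mul_le_mul (by linarith) c0 (norm_nonneg _) hkt
    have a3 : (κ + 17) * (t * u) = κ * t * u + 17 * (t * u) := by ring
    linarith
  have b5 := (le_abs_self _).trans ((abs_re_le _ _).trans (mul_le_mul b3 b4 (norm_nonneg _)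
    (mul_nonneg (mul_nonneg (by linarith) (by linarith)) htu)))
  have b6 := sq_nonneg ‖S j - I * ρ * y (j + 1) - I * ((ν + j : ℝ) : ℂ) * y j‖
  have b7 : 0 ≤ (20 * κ ^ 2 - (5 * κ + 2 * (2 * κ + 1) * (κ + 17))) * (t * (t * u) ^ 2) :=
    mul_nonneg (by nlinarith only [k16]) (mul_nonneg (by linarith) (sq_nonneg _))
  have b8 : (20 * κ ^ 2 - (5 * κ + 2 * (2 * κ + 1) * (κ + 17))) * (t * (t * u) ^ 2)
      = 20 * κ ^ 2 * (t * (t * u) ^ 2) - t ^ 2 * (κ * t) * u ^ 2 - 4 * (κ * t) * (t * u) ^ 2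
        - 2 * ((2 * κ + 1) * t * (t * u) * ((κ + 17) * (t * u))) := by ring
  linarith

lemma psi_down (P : Par κ t ρ w ν N) (h : Rec ρ w ν N y S) (he : 0 ≤ e)
    (hy : ∀ j, j ≤ 9 → ‖y j‖ ≤ t ^ j * e) (hS : ∀ j, j ≤ 7 → ‖S j‖ ≤ t ^ j * e)
    (hw : t ^ 2 ≤ 70 * w) :
    ∀ k, k ≤ 7 → t ^ (2 * k) * psi ρ w N y (7 - k)
      ≤ (1500 * κ ^ 2) ^ k * (max (psi ρ w N y 7) 0 + t ^ 15 * e ^ 2) := by
  have k16 := P.k16
  have t1 := P.t1
  have r1 := P.r1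
  have r16 := P.r16
  have hz : 0 ≤ t ^ 15 * e ^ 2 := mul_nonneg (pow_nonneg (by linarith) _) (sq_nonneg _)
  have hm : 0 ≤ max (psi ρ w N y 7) 0 := le_max_right _ _
  have hK : 1 ≤ 1500 * κ ^ 2 := by nlinarith
  intro k
  induction k with
  | zero =>
    intro _
    have := le_max_left (psi ρ w N y 7) 0
    simp only [mul_zero, pow_zero, one_mul, Nat.sub_zero]
    linarith
  | succ k ih =>
    intro hk
    have ih := ih (by omega)
    obtain ⟨j, hj⟩ : ∃ j, j + k = 6 := ⟨6 - k, by omega⟩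
    have e1 : 7 - (k + 1) = j := by omega
    have e2 : 7 - k = j + 1 := by omega
    rw [e1]
    rw [e2] at ih
    have s := psi_step P h he hy hS (j := j) (by omega)
    set Z := max (psi ρ w N y 7) 0 + t ^ 15 * e ^ 2 with hZ
    have hZ0 : 0 ≤ Z := add_nonneg hm hz
    have hKk : 1 ≤ (1500 * κ ^ 2) ^ k := one_le_pow₀ hK
    have hKZ : 0 ≤ (1500 * κ ^ 2) ^ k * Z := mul_nonneg (by linarith) hZ0
    have htk : 0 ≤ t ^ (2 * k) := pow_nonneg (by linarith) _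
    rcases le_or_gt (psi ρ w N y j) 0 with h0 | h0
    · refine le_trans (mul_nonpos_of_nonneg_of_nonpos (pow_nonneg (by linarith) _) h0) ?_
      exact mul_nonneg (pow_nonneg (by linarith) _) hZ0
    · have a1 : t ^ 2 * psi ρ w N y j ≤ 70 * w * psi ρ w N y j :=
        mul_le_mul_of_nonneg_right hw h0.le
      have a2 : t ^ (2 * k) * (t ^ 2 * psi ρ w N y j) ≤ t ^ (2 * k) * (70 * (4 * ρ
          * psi ρ w N y (j + 1) + 20 * κ ^ 2 * (t ^ (2 * j + 3) * e ^ 2))) :=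
        mul_le_mul_of_nonneg_left (by linarith) htk
      have e3 : t ^ (2 * k) * t ^ (2 * j + 3) = t ^ 15 := by
        rw [← pow_add]; congr 1; omega
      have e4 : t ^ (2 * k) * (70 * (4 * ρ * psi ρ w N y (j + 1)
          + 20 * κ ^ 2 * (t ^ (2 * j + 3) * e ^ 2))) = 280 * ρ * (t ^ (2 * k)
          * psi ρ w N y (j + 1)) + 1400 * κ ^ 2 * (t ^ 15 * e ^ 2) := by
        rw [← e3]; ring
      have a3 : 280 * ρ * (t ^ (2 * k) * psi ρ w N y (j + 1))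
          ≤ 280 * ρ * ((1500 * κ ^ 2) ^ k * Z) := mul_le_mul_of_nonneg_left ih (by linarith)
      have a4 : 280 * ρ * ((1500 * κ ^ 2) ^ k * Z) ≤ 100 * κ ^ 2 * ((1500 * κ ^ 2) ^ k * Z) :=
        mul_le_mul_of_nonneg_right (by nlinarith) hKZ
      have a5 : t ^ 15 * e ^ 2 ≤ (1500 * κ ^ 2) ^ k * Z := by
        have : Z ≤ (1500 * κ ^ 2) ^ k * Z := by nlinarith
        linarith
      have a6 : 1400 * κ ^ 2 * (t ^ 15 * e ^ 2) ≤ 1400 * κ ^ 2 * ((1500 * κ ^ 2) ^ k * Z) :=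
        mul_le_mul_of_nonneg_left a5 (by positivity)
      have e5 : t ^ (2 * (k + 1)) * psi ρ w N y j = t ^ (2 * k) * (t ^ 2 * psi ρ w N y j) := by
        ring
      have e6 : (1500 * κ ^ 2) ^ (k + 1) * Z = 1500 * κ ^ 2 * ((1500 * κ ^ 2) ^ k * Z) := by ring
      rw [e5, e6]
      linarith

end Vale.Agent.P139Z.ExtM
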