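import Vale.Agent.P139Z.OCalc
import Vale.Agent.P139Z.ExtM.Pt

/-! The differentiated system and the size of its sources. -/

open Set Filter Topology MeasureTheory Complex
open scoped NNReal ENNReal ComplexConjugate ContDiff

namespace Vale.Agent.P139Z.ExtM

/-- The source at level `j`. -/
noncomputable def src (V₁ V₂ F H : ℝ → ℂ) (j : ℕ) (ρ : ℝ) : ℂ :=
  iteratedDeriv j (fun x => V₁ x * F x + V₂ x * conj (H x)) ρ

lemma iter_conj (H : ℝ → ℂ) (j : ℕ) :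
    iteratedDeriv j (fun x => conj (H x)) = fun x => conj (iteratedDeriv j H x) := by
  induction j with
  | zero => simp
  | succ j ih =>
    rw [iteratedDeriv_succ, ih, iteratedDeriv_succ]
    exact deriv.star' (f := iteratedDeriv j H)

lemma at_of_on {n : WithTop ℕ∞} {F : ℝ → ℂ} (h : ContDiffOn ℝ n F (Ioi 0)) {ρ : ℝ} (hρ : 0 < ρ)
    {j : ℕ} (hj : (j : WithTop ℕ∞) ≤ n) : ContDiffAt ℝ j F ρ :=
  (h.contDiffAt (Ioi_mem_nhds hρ)).of_le hj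

lemma at_of_inf {F : ℝ → ℂ} (h : ContDiffOn ℝ ∞ F (Ioi 0)) {ρ : ℝ} (hρ : 0 < ρ) (j : ℕ) :
    ContDiffAt ℝ j F ρ :=
  at_of_on h hρ (by exact_mod_cast le_top)

lemma conj_at {j : ℕ} {H : ℝ → ℂ} {ρ : ℝ} (h : ContDiffAt ℝ j H ρ) :
    ContDiffAt ℝ j (fun x => conj (H x)) ρ :=
  (Complex.conjCLE.contDiff.contDiffAt).comp ρ h

lemma mul_le {V F : ℝ → ℂ} {ρ : ℝ} {j : ℕ} (hV : ContDiffAt ℝ j V ρ) (hF : ContDiffAt ℝ j F ρ)
    {v : ℕ → ℝ} (hv : ∀ i, i ≤ j → ‖iteratedDeriv i V ρ‖ ≤ v i) :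
    ‖iteratedDeriv j (fun x => V x * F x) ρ‖
      ≤ ∑ i ∈ Finset.range (j + 1), (j.choose i : ℝ) * (v (j - i) * ‖iteratedDeriv i F ρ‖) := by
  have e : (fun x => V x * F x) = F * V := by funext x; simp [mul_comm]
  rw [e, iteratedDeriv_mul hF hV]
  refine (norm_sum_le _ _).trans (Finset.sum_le_sum fun i _ => ?_)
  rw [norm_mul, norm_mul, Complex.norm_natCast, mul_assoc, mul_comm ‖iteratedDeriv i F ρ‖]
  exact mul_le_mul_of_nonneg_left (mul_le_mul_of_nonneg_right (hv _ (Nat.sub_le _ _))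
    (norm_nonneg _)) (Nat.cast_nonneg _)

lemma src_le {V₁ V₂ F H : ℝ → ℂ} {ρ : ℝ} {j : ℕ} (h₁ : ContDiffAt ℝ j V₁ ρ)
    (h₂ : ContDiffAt ℝ j V₂ ρ) (hF : ContDiffAt ℝ j F ρ) (hH : ContDiffAt ℝ j H ρ) {v : ℕ → ℝ}
    (hv : ∀ i, i ≤ j → ‖iteratedDeriv i V₁ ρ‖ ≤ v i ∧ ‖iteratedDeriv i V₂ ρ‖ ≤ v i) :
    ‖src V₁ V₂ F H j ρ‖ ≤ ∑ i ∈ Finset.range (j + 1), (j.choose i : ℝ)
      * (v (j - i) * (‖iteratedDeriv i F ρ‖ + ‖iteratedDeriv i H ρ‖)) := by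
  unfold src
  rw [iteratedDeriv_fun_add (h₁.mul hF) (h₂.mul (conj_at hH))]
  refine (norm_add_le _ _).trans ((add_le_add (mul_le h₁ hF fun i hi => (hv i hi).1)
    (mul_le h₂ (conj_at hH) fun i hi => (hv i hi).2)).trans (le_of_eq ?_))
  rw [← Finset.sum_add_distrib]
  refine Finset.sum_congr rfl fun i _ => ?_
  rw [iter_conj, norm_conj]
  ring

lemma rec_of {V₁ V₂ F H : ℝ → ℂ} {A : ℂ} {B : ℕ} (hF : ContDiffOn ℝ 30 F (Ioi 0))
    (e : ∀ ρ : ℝ, 0 < ρ → Mop A B F ρ = V₁ ρ * F ρ + V₂ ρ * conj (H ρ) + 0) {ρ : ℝ} (hρ : 0 < ρ) :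
    Rec ρ (-A.im) A.re B (fun j => iteratedDeriv j F ρ) (fun j => src V₁ V₂ F H j ρ) := by
  intro j hj
  have h1 : Mop A B F =ᶠ[𝓝 ρ] fun x => V₁ x * F x + V₂ x * conj (H x) := by
    filter_upwards [Ioi_mem_nhds hρ] with x hx
    rw [e x hx, add_zero]
  have h2 := h1.iteratedDeriv_eq j
  rw [iteratedDeriv_Mop A B j (at_of_on hF hρ (by exact_mod_cast (by omega : j + 2 ≤ 30)))] at h2
  have h3 : iteratedDeriv 2 (iteratedDeriv j F) = iteratedDeriv (j + 2) F := by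
    rw [iteratedDeriv_succ, iteratedDeriv_one, ← iteratedDeriv_succ, ← iteratedDeriv_succ]
  unfold Mop at h2
  rw [h3, ← iteratedDeriv_succ] at h2
  have h4 : I * (A + j) = I * ((A.re : ℂ) + j) + ((-A.im : ℝ) : ℂ) := by
    conv_lhs => rw [← re_add_im A]
    push_cast
    linear_combination (A.im : ℂ) * I_mul_I
  simp only [src]
  rw [← h2, h4]
  push_cast
  ring

lemma hasDerivAt_iter {F : ℝ → ℂ} (hF : ContDiffOn ℝ 30 F (Ioi 0)) {j : ℕ} (hj : j ≤ 20) {ρ : ℝ}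
    (hρ : 0 < ρ) : HasDerivAt (iteratedDeriv j F) (iteratedDeriv (j + 1) F ρ) ρ := by
  rw [iteratedDeriv_succ]
  refine DifferentiableAt.hasDerivAt ?_
  have h := at_of_on hF hρ (j := j + 1) (by exact_mod_cast (by omega : j + 1 ≤ 30))
  have h2 : ContDiffAt ℝ 1 (iteratedFDeriv ℝ j F) ρ :=
    h.iteratedFDeriv_right (by push_cast; rw [add_comm])
  rw [iteratedDeriv_eq_equiv_comp]
  exact (ContinuousMultilinearMap.piFieldEquiv ℝ (Fin j) ℂ).symm.toContinuousLinearEquiv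
    |>.differentiableAt.comp ρ (h2.differentiableAt (by norm_num))

end Vale.Agent.P139Z.ExtM
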