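import Vale.Agent.P139Z.ExtE
import Vale.Agent.P139Z.ExtM.Leib

/-! The momentum identity at the level seven. -/

open Set Filter Topology MeasureTheory Complex
open scoped NNReal ENNReal ComplexConjugate ContDiff

namespace Vale.Agent.P139Z.ExtM

lemma hd_re {y : ℝ → ℂ} {p : ℂ} {ρ : ℝ} (h : HasDerivAt y p ρ) :
    HasDerivAt (fun x => (y x).re) p.re ρ :=
  Complex.reCLM.hasFDerivAt.comp_hasDerivAt ρ h

lemma hd_im {y : ℝ → ℂ} {p : ℂ} {ρ : ℝ} (h : HasDerivAt y p ρ) :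
    HasDerivAt (fun x => (y x).im) p.im ρ :=
  Complex.imCLM.hasFDerivAt.comp_hasDerivAt ρ h

lemma hasDerivAt_mom {y p : ℝ → ℂ} {q S : ℂ} {ρ w v b : ℝ} (hρ : 0 < ρ)
    (hy : HasDerivAt y (p ρ) ρ) (hp : HasDerivAt p q ρ)
    (h : 4 * (ρ : ℂ) * q + (((4 * b + 2 : ℝ) : ℂ) + I * ρ) * p ρ + (I * (v : ℂ) + w) * y ρ = S) :
    HasDerivAt (fun x : ℝ => x ^ b * mom x w b (y x) (p x))
      (ρ ^ b * ((b - 2 * v) * (conj (y ρ) * p ρ).im + b * (b - 1) / ρ ^ 2 * ‖y ρ‖ ^ 2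
        + 2 * (conj (p ρ) * S).re + b / ρ * (conj (y ρ) * S).re)) ρ := by
  have e : (fun x : ℝ => x ^ b * mom x w b (y x) (p x)) = fun x : ℝ => x ^ b
      * (4 * x * ((p x).re * (p x).re + (p x).im * (p x).im)
        + 4 * b * ((y x).re * (p x).re + (y x).im * (p x).im)
        + (w + b * x⁻¹) * ((y x).re * (y x).re + (y x).im * (y x).im)) := by
    funext x
    simp only [mom, sqn, div_eq_mul_inv]
    simp
    left
    ring
  rw [e]
  have y1 := hd_re hy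
  have y2 := hd_im hy
  have p1 := hd_re hp
  have p2 := hd_im hp
  have h0 : HasDerivAt (fun x : ℝ => x ^ b) (b * ρ ^ (b - 1)) ρ :=
    Real.hasDerivAt_rpow_const (Or.inl hρ.ne')
  have h1 := (((hasDerivAt_id' ρ).const_mul 4).fun_mul ((p1.fun_mul p1).fun_add (p2.fun_mul p2)))
  have h2 := ((y1.fun_mul p1).fun_add (y2.fun_mul p2)).const_mul (4 * b)
  have h3 := (((hasDerivAt_inv hρ.ne').const_mul b).const_add w).fun_mul
    ((y1.fun_mul y1).fun_add (y2.fun_mul y2))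
  refine (h0.fun_mul ((h1.fun_add h2).fun_add h3)).congr_deriv ?_
  rw [← h, Real.rpow_sub_one hρ.ne', sqn]
  simp
  field_simp
  ring

lemma le_integral_of_deriv {Ψ D k : ℝ → ℝ} {a : ℝ} (hd : ∀ x, a ≤ x → HasDerivAt Ψ (D x) x)
    (hk : IntegrableOn k (Ioi a)) (hle : ∀ x, a < x → -D x ≤ k x)
    (hlim : Tendsto Ψ atTop (𝓝 0)) : Ψ a ≤ ∫ x in Ioi a, k x := by
  have h1 : Tendsto (fun b => Ψ b + ∫ x in a..b, k x) atTop (𝓝 (0 + ∫ x in Ioi a, k x)) :=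
    hlim.add (intervalIntegral_tendsto_integral_Ioi a hk tendsto_id)
  rw [zero_add] at h1
  refine ge_of_tendsto h1 ?_
  filter_upwards [eventually_ge_atTop a] with b hb
  have h2 := intervalIntegral.sub_le_integral_of_hasDeriv_right_of_le (g := fun x => -Ψ x)
    (g' := fun x => -D x) (φ := k) hb
    (fun x hx => (hd x hx.1).continuousAt.neg.continuousWithinAt)
    (fun x hx => (hd x hx.1.le).neg.hasDerivWithinAt)
    ((integrableOn_Icc_iff_integrableOn_Ioc).mpr (hk.mono_set Ioc_subset_Ioi_self))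
    (fun x hx => hle x hx.1)
  linarith

lemma amgm {ρ p q s t a c : ℝ} (hρ : 1 ≤ ρ) (hs : 2 * s ≤ p + q) (ht : 0 < t) (ha : 0 ≤ a)
    (hc : 0 ≤ c) : 2 * (ρ ^ s * (a * c)) ≤ ρ ^ p * a ^ 2 / t + t * (ρ ^ q * c ^ 2) := by
  have h0 : 0 < ρ := by linarith
  have h1 : ρ ^ s ≤ ρ ^ (p / 2) * ρ ^ (q / 2) := by
    rw [← Real.rpow_add h0]; exact Real.rpow_le_rpow_of_exponent_le hρ (by linarith)
  have h2 : ρ ^ p = (ρ ^ (p / 2)) ^ 2 := by
    rw [pow_two, ← Real.rpow_add h0]; congr 1; ring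
  have h3 : ρ ^ q = (ρ ^ (q / 2)) ^ 2 := by
    rw [pow_two, ← Real.rpow_add h0]; congr 1; ring
  rw [h2, h3]
  have h4 := mul_le_mul_of_nonneg_right h1 (mul_nonneg ha hc)
  set u := ρ ^ (p / 2)
  set v := ρ ^ (q / 2)
  have h5 : u ^ 2 * a ^ 2 / t + t * (v ^ 2 * c ^ 2) - 2 * (u * v * (a * c))
      = (u * a - t * (v * c)) ^ 2 / t := by field_simp; ring
  have h6 : 0 ≤ (u * a - t * (v * c)) ^ 2 / t := div_nonneg (sq_nonneg _) ht.le
  linarith

lemma decay_prod {d : ℝ} {F : ℝ → ℂ} (h : Decay d F) :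
    ∃ C : ℝ, ∀ (p : ℝ) (i j : ℕ), i ≤ 10 → j ≤ 10 → ∀ ρ : ℝ, 1 ≤ ρ →
      ρ ^ p * (‖iteratedDeriv i F ρ‖ * ‖iteratedDeriv j F ρ‖) ≤ C * ρ ^ (p - 2 * d - i - j) := by
  obtain ⟨C, hC⟩ := h
  refine ⟨C ^ 2, fun p i j hi hj ρ hρ => ?_⟩
  have h0 : 0 < ρ := by linarith
  have h1 := mul_le_mul (hC i hi ρ hρ) (hC j hj ρ hρ) (norm_nonneg _)
    ((norm_nonneg _).trans (hC i hi ρ hρ))
  refine (mul_le_mul_of_nonneg_left h1 (Real.rpow_nonneg h0.le _)).trans (le_of_eq ?_)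
  rw [show p - 2 * d - i - j = p + (-(d + i) + -(d + j)) by ring, Real.rpow_add h0,
    Real.rpow_add h0]
  ring

lemma tendsto_prod {d : ℝ} {F : ℝ → ℂ} (h : Decay d F) {p : ℝ} {i j : ℕ} (hi : i ≤ 10)
    (hj : j ≤ 10) (hp : p - 2 * d - i - j < 0) :
    Tendsto (fun ρ : ℝ => ρ ^ p * (‖iteratedDeriv i F ρ‖ * ‖iteratedDeriv j F ρ‖)) atTop (𝓝 0) := by
  obtain ⟨C, hC⟩ := decay_prod h
  have h1 : Tendsto (fun ρ : ℝ => C * ρ ^ (p - 2 * d - i - j)) atTop (𝓝 (C * 0)) := by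
    refine Tendsto.const_mul C ?_
    have := tendsto_rpow_neg_atTop (y := -(p - 2 * d - i - j)) (by linarith)
    simpa only [neg_neg] using this
  rw [mul_zero] at h1
  refine squeeze_zero' ?_ ?_ h1
  · filter_upwards [eventually_ge_atTop 0] with ρ hρ
    exact mul_nonneg (Real.rpow_nonneg hρ _) (mul_nonneg (norm_nonneg _) (norm_nonneg _))
  · filter_upwards [eventually_ge_atTop 1] with ρ hρ using hC p i j hi hj ρ hρ

lemma integrableOn_one {d : ℝ} {F : ℝ → ℂ} (h : Decay d F) (hF : ContDiffOn ℝ 30 F (Ioi 0))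
    {p : ℝ} {j : ℕ} (hj : j ≤ 10) (hp : p - 2 * d - j - j < -1) {a : ℝ} (ha : 1 ≤ a) :
    IntegrableOn (fun ρ : ℝ => ρ ^ p * ‖iteratedDeriv j F ρ‖ ^ 2) (Ioi a) := by
  obtain ⟨C, hC⟩ := decay_prod h
  have h1 : IntegrableOn (fun ρ : ℝ => C * ρ ^ (p - 2 * d - j - j)) (Ioi a) :=
    (integrableOn_Ioi_rpow_of_lt hp (by linarith)).const_mul C
  refine Integrable.mono' h1 ?_ ?_
  · refine ContinuousOn.aestronglyMeasurable (fun x hx => ?_) measurableSet_Ioi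
    have hx0 : 0 < x := by have : a < x := hx; linarith
    exact ((Real.continuousAt_rpow_const x p (Or.inl hx0.ne')).mul
      ((hasDerivAt_iter hF (by omega) hx0).continuousAt.norm.pow 2)).continuousWithinAt
  · refine (ae_restrict_iff' measurableSet_Ioi).mpr (Eventually.of_forall fun x hx => ?_)
    have hx1 : 1 ≤ x := by have : a < x := hx; linarith
    rw [Real.norm_of_nonneg (mul_nonneg (Real.rpow_nonneg (by linarith) _) (sq_nonneg _)), pow_two]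
    exact hC p j j hj hj x hx1

lemma integrableOn_two {d : ℝ} {F H : ℝ → ℂ} (h : Decay d F) (h' : Decay d H)
    (hF : ContDiffOn ℝ 30 F (Ioi 0)) (hH : ContDiffOn ℝ 30 H (Ioi 0))
    {p : ℝ} {j : ℕ} (hj : j ≤ 10) (hp : p - 2 * d - j - j < -1) {a : ℝ} (ha : 1 ≤ a) :
    IntegrableOn (fun ρ : ℝ => ρ ^ p * (‖iteratedDeriv j F ρ‖ ^ 2 + ‖iteratedDeriv j H ρ‖ ^ 2))
      (Ioi a) := by
  simp only [mul_add]
  exact (integrableOn_one h hF hj hp ha).add (integrableOn_one h' hH hj hp ha)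

lemma tendsto_mom {l : ℕ} {H : ℝ → ℂ} (h : Decay ((l : ℝ) / 2) H) (w : ℝ) :
    Tendsto (fun x : ℝ => x ^ ((l : ℝ) + 25 / 2)
      * mom x w (l + 25 / 2) (iteratedDeriv 7 H x) (iteratedDeriv 8 H x)) atTop (𝓝 0) := by
  have h1 := (tendsto_prod h (p := l + 25 / 2 + 1) (i := 8) (j := 8) (by norm_num) (by norm_num)
    (by push_cast; linarith)).const_mul 4
  have h2 := (tendsto_prod h (p := l + 25 / 2) (i := 7) (j := 8) (by norm_num) (by norm_num)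
    (by push_cast; linarith)).const_mul (4 * ((l : ℝ) + 25 / 2))
  have h3 := (tendsto_prod h (p := l + 25 / 2) (i := 7) (j := 7) (by norm_num) (by norm_num)
    (by push_cast; linarith)).const_mul (|w| + ((l : ℝ) + 25 / 2))
  have h4 := (h1.add h2).add h3
  simp only [mul_zero, add_zero] at h4
  refine squeeze_zero_norm' ?_ h4
  filter_upwards [eventually_ge_atTop 1] with x hx
  have hx0 : 0 < x := by linarith
  have hb : (0 : ℝ) ≤ l + 25 / 2 := by positivity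
  have hW : 0 ≤ x ^ ((l : ℝ) + 25 / 2) := Real.rpow_nonneg hx0.le _
  rw [Real.rpow_add_one hx0.ne', norm_mul, Real.norm_of_nonneg hW, Real.norm_eq_abs]
  have a1 : |mom x w (l + 25 / 2) (iteratedDeriv 7 H x) (iteratedDeriv 8 H x)|
      ≤ 4 * x * ‖iteratedDeriv 8 H x‖ ^ 2
        + 4 * (l + 25 / 2) * (‖iteratedDeriv 7 H x‖ * ‖iteratedDeriv 8 H x‖)
        + (|w| + (l + 25 / 2)) * ‖iteratedDeriv 7 H x‖ ^ 2 := by
    unfold mom
    refine (abs_add_le _ _).trans (add_le_add ((abs_add_le _ _).trans (add_le_add ?_ ?_)) ?_)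
    · rw [abs_of_nonneg (by positivity)]
    · rw [abs_mul, abs_of_nonneg (by positivity)]
      exact mul_le_mul_of_nonneg_left (abs_re_le _ _) (by positivity)
    · rw [abs_mul, abs_of_nonneg (sq_nonneg ‖iteratedDeriv 7 H x‖)]
      refine mul_le_mul_of_nonneg_right ((abs_add_le _ _).trans (add_le_add le_rfl ?_))
        (sq_nonneg _)
      rw [abs_of_nonneg (div_nonneg hb hx0.le)]
      exact div_le_self hb hx
  refine (mul_le_mul_of_nonneg_left a1 hW).trans (le_of_eq ?_)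
  ring

lemma sum_amgm {ρ c p s t a W : ℝ} {x y : ℕ → ℝ} (hρ : 1 ≤ ρ) (ht : 0 < t) (ha : 0 ≤ a)
    (hx : ∀ i, 0 ≤ x i) (hy : ∀ i, 0 ≤ y i) {σ : ℝ} (hs : 2 * s ≤ p + c + 16)
    (hσ : σ ≤ ∑ i ∈ Finset.range (7 + 1), ((7 : ℕ).choose i : ℝ)
      * (ρ ^ (-(1 + ((7 - i : ℕ) : ℝ))) * (x i + y i))) (hW : ρ ^ p * a ^ 2 ≤ W) :
    2 * (ρ ^ s * (a * σ)) ≤ 280 * (W / t)
      + 70 * (t * ∑ i ∈ Finset.range 8, ρ ^ (c + 2 * (i : ℝ)) * (x i ^ 2 + y i ^ 2)) := by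
  have h0 : 0 < ρ := by linarith
  have h1 : 2 * (ρ ^ s * (a * σ)) ≤ 2 * (ρ ^ s * (a * _)) :=
    mul_le_mul_of_nonneg_left (mul_le_mul_of_nonneg_left (mul_le_mul_of_nonneg_left hσ ha)
      (Real.rpow_nonneg h0.le _)) (by norm_num)
  refine h1.trans ?_
  have h2 : 280 * (W / t) + 70 * (t * ∑ i ∈ Finset.range 8, ρ ^ (c + 2 * (i : ℝ))
      * (x i ^ 2 + y i ^ 2)) = ∑ i ∈ Finset.range 8, 35 * (W / t + t * (ρ ^ (c + 2 * (i : ℝ))
      * (2 * (x i ^ 2 + y i ^ 2)))) := by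
    simp only [Finset.sum_range_succ, Finset.sum_range_zero]
    ring
  rw [h2, Finset.mul_sum, Finset.mul_sum, Finset.mul_sum]
  refine Finset.sum_le_sum fun i hi => ?_
  have hi7 : i ≤ 7 := Nat.lt_succ_iff.mp (Finset.mem_range.mp hi)
  have h3 : ((7 : ℕ).choose i : ℝ) ≤ 35 := by
    have : (7 : ℕ).choose i ≤ 35 := by interval_cases i <;> simp [Nat.choose]
    exact_mod_cast this
  have hc : 0 ≤ x i + y i := add_nonneg (hx i) (hy i)
  have h4 := amgm (p := p) (q := c + 2 * i) (s := s + -(1 + ((7 - i : ℕ) : ℝ))) hρ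
    (by rw [Nat.cast_sub hi7]; push_cast; linarith) ht ha hc
  have h5 : ρ ^ p * a ^ 2 / t ≤ W / t := div_le_div_of_nonneg_right hW ht.le
  have h6 : t * (ρ ^ (c + 2 * (i : ℝ)) * (x i + y i) ^ 2)
      ≤ t * (ρ ^ (c + 2 * (i : ℝ)) * (2 * (x i ^ 2 + y i ^ 2))) :=
    mul_le_mul_of_nonneg_left (mul_le_mul_of_nonneg_left (by nlinarith [sq_nonneg (x i - y i)])
      (Real.rpow_nonneg h0.le _)) ht.le
  have h7 : 0 ≤ 2 * (ρ ^ (s + -(1 + ((7 - i : ℕ) : ℝ))) * (a * (x i + y i))) :=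
    mul_nonneg (by norm_num) (mul_nonneg (Real.rpow_nonneg h0.le _) (mul_nonneg ha hc))
  have h8 : 2 * (ρ ^ s * (a * (((7 : ℕ).choose i : ℝ) * (ρ ^ (-(1 + ((7 - i : ℕ) : ℝ)))
      * (x i + y i))))) = ((7 : ℕ).choose i : ℝ)
      * (2 * (ρ ^ (s + -(1 + ((7 - i : ℕ) : ℝ))) * (a * (x i + y i)))) := by
    rw [Real.rpow_add h0]; ring
  rw [h8]
  exact (mul_le_mul_of_nonneg_right h3 h7).trans
    (mul_le_mul_of_nonneg_left (by linarith) (by norm_num))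

lemma mom_seven {V₁ V₂ F H : ℝ → ℂ} {A : ℂ} {l : ℕ} {a κ t : ℝ} (h₁ : ContDiffOn ℝ ∞ V₁ (Ioi 0))
    (h₂ : ContDiffOn ℝ ∞ V₂ (Ioi 0)) (hF : ContDiffOn ℝ 30 F (Ioi 0))
    (hH : ContDiffOn ℝ 30 H (Ioi 0))
    (e : ∀ ρ : ℝ, 0 < ρ → Mop A (6 + l) H ρ = V₁ ρ * H ρ + V₂ ρ * conj (F ρ) + 0) (ha : 1 ≤ a)
    (hV : ∀ i ≤ 10, ∀ ρ : ℝ, a ≤ ρ → ‖iteratedDeriv i V₁ ρ‖ ≤ ρ ^ (-(1 + (i : ℝ))) ∧
      ‖iteratedDeriv i V₂ ρ‖ ≤ ρ ^ (-(1 + (i : ℝ))))
    (dF : Decay ((l : ℝ) / 2) F) (dH : Decay ((l : ℝ) / 2) H) (hκ : 16 ≤ κ) (ht : 1 ≤ t)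
    (hb : (l : ℝ) + 25 / 2 ≤ κ * t) (hA : |(l : ℝ) + 25 / 2 - 2 * (A.re + 7)| ≤ κ) :
    a ^ ((l : ℝ) + 25 / 2) * mom a (-A.im) (l + 25 / 2) (iteratedDeriv 7 H a) (iteratedDeriv 8 H a)
      ≤ 200 * κ * (wn (l + 13) 8 F H a / t + t * wn (l + 12) 7 F H a
        + t * ∑ i ∈ Finset.range 8, wn (l - 4 + 2 * i) i F H a) := by
  have ht0 : 0 < t := by linarith
  have i8 := integrableOn_two dF dH hF hH (p := l + 13) (j := 8) (by norm_num)
    (by push_cast; linarith) ha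
  have i7 := integrableOn_two dF dH hF hH (p := l + 12) (j := 7) (by norm_num)
    (by push_cast; linarith) ha
  have ii : ∀ i ∈ Finset.range 8, IntegrableOn (fun ρ : ℝ => ρ ^ ((l : ℝ) - 4 + 2 * i)
      * (‖iteratedDeriv i F ρ‖ ^ 2 + ‖iteratedDeriv i H ρ‖ ^ 2)) (Ioi a) := fun i hi =>
    integrableOn_two dF dH hF hH (by have := Finset.mem_range.mp hi; omega) (by linarith) ha
  have is := integrable_finsetSum _ ii
  have hk := ((((i8.div_const t).add (i7.const_mul t)).add (is.const_mul t)).const_mul (200 * κ))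
  refine (le_integral_of_deriv (Ψ := fun x : ℝ => x ^ ((l : ℝ) + 25 / 2)
    * mom x (-A.im) (l + 25 / 2) (iteratedDeriv 7 H x) (iteratedDeriv 8 H x))
    (fun x hx => hasDerivAt_mom (v := A.re + 7) (S := src V₁ V₂ H F 7 x) (by linarith)
      (hasDerivAt_iter hH (by norm_num) (by linarith))
      (hasDerivAt_iter hH (by norm_num) (by linarith)) ?_) hk (fun x hx => ?_)
    (tendsto_mom dH _)).trans (le_of_eq ?_)
  · have := rec_of hH e (ρ := x) (by linarith) 7 le_rfl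
    simp only at this
    rw [← this]
    push_cast
    ring
  · have hx1 : 1 ≤ x := by linarith
    have hx0 : 0 < x := by linarith
    have hS := src_le (j := 7) (at_of_inf h₁ hx0 7)
      (at_of_inf h₂ hx0 7) (at_of_on hH hx0 (by norm_num))
      (at_of_on hF hx0 (by norm_num)) (v := fun i => x ^ (-(1 + (i : ℝ))))
      (fun i hi => hV i (by omega) x hx.le)
    simp only [add_comm ‖iteratedDeriv _ H x‖] at hS
    simp only [Pi.add_apply]
    set W8 := x ^ ((l : ℝ) + 13) * (‖iteratedDeriv 8 F x‖ ^ 2 + ‖iteratedDeriv 8 H x‖ ^ 2)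
    set W7 := x ^ ((l : ℝ) + 12) * (‖iteratedDeriv 7 F x‖ ^ 2 + ‖iteratedDeriv 7 H x‖ ^ 2)
    have w8 : x ^ ((l : ℝ) + 13) * ‖iteratedDeriv 8 H x‖ ^ 2 ≤ W8 :=
      mul_le_mul_of_nonneg_left (le_add_of_nonneg_left (sq_nonneg _)) (Real.rpow_nonneg hx0.le _)
    have w7 : x ^ ((l : ℝ) + 12) * ‖iteratedDeriv 7 H x‖ ^ 2 ≤ W7 :=
      mul_le_mul_of_nonneg_left (le_add_of_nonneg_left (sq_nonneg _)) (Real.rpow_nonneg hx0.le _)
    have b1 := amgm (p := l + 13) (q := l + 12) (s := l + 25 / 2) hx1 (by linarith) ht0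
      (norm_nonneg (iteratedDeriv 8 H x)) (norm_nonneg (iteratedDeriv 7 H x))
    have b2 := sum_amgm (c := l - 4) (s := l + 25 / 2) hx1 ht0 (norm_nonneg _)
      (fun i => norm_nonneg _) (fun i => norm_nonneg _) (by linarith) hS w8
    have b3 := sum_amgm (c := l - 4) (s := l + 25 / 2 - 1) hx1 one_pos (norm_nonneg _)
      (fun i => norm_nonneg _) (fun i => norm_nonneg _) (by linarith) hS w7
    set Z := ∑ i ∈ Finset.range 8, x ^ ((l : ℝ) - 4 + 2 * i)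
      * (‖iteratedDeriv i F x‖ ^ 2 + ‖iteratedDeriv i H x‖ ^ 2)
    have hZ : 0 ≤ Z := Finset.sum_nonneg fun i _ => mul_nonneg (Real.rpow_nonneg hx0.le _)
      (add_nonneg (sq_nonneg _) (sq_nonneg _))
    rw [Real.rpow_sub_one hx0.ne', div_one, one_mul] at b3
    set W := x ^ ((l : ℝ) + 25 / 2)
    have hW : 0 ≤ W := Real.rpow_nonneg hx0.le _
    set y := iteratedDeriv 7 H x
    set p := iteratedDeriv 8 H x
    set S := src V₁ V₂ H F 7 x
    have hb0 : (0 : ℝ) ≤ l + 25 / 2 - 1 := by have := Nat.cast_nonneg (α := ℝ) l; linarith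
    have c1 : -(((l : ℝ) + 25 / 2 - 2 * (A.re + 7)) * (conj y * p).im) ≤ κ * (‖p‖ * ‖y‖) := by
      refine (neg_le_abs _).trans ?_
      rw [abs_mul, mul_comm ‖p‖]
      exact mul_le_mul hA (abs_im_le _ _) (abs_nonneg _) (by linarith)
    have c2 : 0 ≤ ((l : ℝ) + 25 / 2) * (l + 25 / 2 - 1) / x ^ 2 * ‖y‖ ^ 2 :=
      mul_nonneg (div_nonneg (mul_nonneg (by linarith) hb0) (sq_nonneg _)) (sq_nonneg _)
    have c3 : -(conj p * S).re ≤ ‖p‖ * ‖S‖ := (neg_le_abs _).trans (abs_re_le _ _)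
    have c4 : -(((l : ℝ) + 25 / 2) / x * (conj y * S).re) ≤ κ * t / x * (‖y‖ * ‖S‖) := by
      refine (neg_le_abs _).trans ?_
      rw [abs_mul, abs_of_nonneg (div_nonneg (by linarith) hx0.le)]
      exact mul_le_mul (div_le_div_of_nonneg_right hb hx0.le) (abs_re_le _ _) (abs_nonneg _)
        (div_nonneg (by linarith) hx0.le)
    have c5 := mul_le_mul_of_nonneg_left (add_le_add (add_le_add c1 (add_le_add c3 c3)) c4) hW
    have c6 := mul_nonneg hW c2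
    have d1 : W * (κ * (‖p‖ * ‖y‖)) ≤ κ * (W8 / t + t * W7) := by
      have g1 : x ^ ((l : ℝ) + 13) * ‖p‖ ^ 2 / t ≤ W8 / t := div_le_div_of_nonneg_right w8 ht0.le
      have g2 := mul_le_mul_of_nonneg_left w7 ht0.le
      have g3 : 0 ≤ W * (‖p‖ * ‖y‖) := mul_nonneg hW (mul_nonneg (norm_nonneg _) (norm_nonneg _))
      rw [mul_left_comm]
      exact mul_le_mul_of_nonneg_left (by linarith) (by linarith)
    have d3 : W * (κ * t / x * (‖y‖ * ‖S‖)) ≤ κ * t * (140 * W7 + 35 * Z) := by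
      have g : W * (κ * t / x * (‖y‖ * ‖S‖)) = κ * t * (W / x * (‖y‖ * ‖S‖)) := by ring
      rw [g]
      exact mul_le_mul_of_nonneg_left (by linarith) (by linarith)
    have p8 : 0 ≤ W8 / t := div_nonneg ((mul_nonneg (Real.rpow_nonneg hx0.le _)
      (sq_nonneg _)).trans w8) ht0.le
    have p7 : 0 ≤ t * W7 := mul_nonneg ht0.le ((mul_nonneg (Real.rpow_nonneg hx0.le _)
      (sq_nonneg _)).trans w7)
    have pZ : 0 ≤ t * Z := mul_nonneg ht0.le hZ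
    have q8 := mul_nonneg (by linarith : 0 ≤ 199 * κ - 280) p8
    have q7 := mul_nonneg (by linarith : 0 ≤ 59 * κ) p7
    have qZ := mul_nonneg (by linarith : 0 ≤ 165 * κ - 70) pZ
    linarith
  · rw [integral_const_mul, integral_add' ((i8.div_const t).add (i7.const_mul t)) (is.const_mul t),
      integral_add' (i8.div_const t) (i7.const_mul t), integral_div, integral_const_mul,
      integral_const_mul, integral_finsetSum _ ii]
    rfl

end Vale.Agent.P139Z.ExtM
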